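import Vale.Agent.P235.K5.Cap

/-!
P235, line K5 (3-sums), part CAP: row [LINE] (helper529), with the first clause of [LEGS].
-/

set_option autoImplicit false

namespace Vale.Agent.P235.K5.H529

open SimpleGraph Vale.Agent.P235

/-- the state of a point with respect to three balls -/
theorem state {V : Type} {d : V → V → ℝ} (hd : IsMet d) {p q r : V} {a b c : ℝ}
    (hab : a + b = d p q) (hac : a + c = d p r) (hbc : b + c = d q r) (z : V) :
    (min (d z p) a = a ∧ min (d z q) b = b ∧ min (d z r) c = c) ∨
    (min (d z p) a = d z p ∧ d z p < a ∧ min (d z q) b = b ∧ min (d z r) c = c) ∨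
    (min (d z p) a = a ∧ min (d z q) b = d z q ∧ d z q < b ∧ min (d z r) c = c) ∨
    (min (d z p) a = a ∧ min (d z q) b = b ∧ min (d z r) c = d z r ∧ d z r < c) := by
  have h1 := hd.tri p z q
  have h2 := hd.tri p z r
  have h3 := hd.tri q z r
  rw [hd.symm p z] at h1 h2
  rw [hd.symm q z] at h3
  rcases lt_or_ge (d z p) a with hp | hp
  · right; left
    exact ⟨min_eq_left hp.le, hp, min_eq_right (by linarith), min_eq_right (by linarith)⟩
  · rcases lt_or_ge (d z q) b with hq | hq
    · right; right; left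
      exact ⟨min_eq_right hp, min_eq_left hq.le, hq, min_eq_right (by linarith)⟩
    · rcases lt_or_ge (d z r) c with hr | hr
      · right; right; right
        exact ⟨min_eq_right hp, min_eq_right hq, min_eq_left hr.le, hr⟩
      · left
        exact ⟨min_eq_right hp, min_eq_right hq, min_eq_right hr⟩

theorem legs3 {V : Type} {d : V → V → ℝ} (hd : IsMet d) {p q r : V} {a b c : ℝ}
    (hab : a + b = d p q) (hac : a + c = d p r) (hbc : b + c = d q r) (x y : V) :
    |min (d x p) a - min (d y p) a| + |min (d x q) b - min (d y q) b| +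
      |min (d x r) c - min (d y r) c| ≤ d x y := by
  have h0 : 0 ≤ d x y := by
    have := hd.tri x y x
    rw [hd.self, hd.symm y x] at this
    linarith
  have hl : ∀ w, |d x w - d y w| ≤ d x y := by
    intro w
    have h1 := hd.tri x y w
    have h2 := hd.tri y x w
    rw [hd.symm y x] at h2
    rw [abs_le]
    constructor <;> linarith
  have hc : ∀ u v, d u v ≤ d x u + d x y + d y v := by
    intro u v
    have h1 := hd.tri u x v
    have h2 := hd.tri x y v
    rw [hd.symm u x] at h1
    linarith
  have hpq := hc p q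
  have hqp := hc q p
  have hpr := hc p r
  have hrp := hc r p
  have hqr := hc q r
  have hrq := hc r q
  rw [hd.symm q p] at hqp
  rw [hd.symm r p] at hrp
  rw [hd.symm r q] at hrq
  have hxp := hl p
  have hxq := hl q
  have hxr := hl r
  have ep : d x p < a → |d x p - a| = a - d x p := fun h => by
    rw [abs_of_neg (by linarith)]; ring
  have eq' : d x q < b → |d x q - b| = b - d x q := fun h => by
    rw [abs_of_neg (by linarith)]; ring
  have er : d x r < c → |d x r - c| = c - d x r := fun h => by
    rw [abs_of_neg (by linarith)]; ring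
  have fp : d y p < a → |a - d y p| = a - d y p := fun h => abs_of_pos (by linarith)
  have fq : d y q < b → |b - d y q| = b - d y q := fun h => abs_of_pos (by linarith)
  have fr : d y r < c → |c - d y r| = c - d y r := fun h => abs_of_pos (by linarith)
  have g1 := fun w => hd.tri x w y
  have hpx := hd.tri p x q
  have one : ∀ w (A : ℝ), d x w < A → A ≤ d y w → A - d x w ≤ d x y := fun w A h h' => by
    have := (abs_le.1 (hl w)).1
    linarith
  have two : ∀ w (A : ℝ), A ≤ d x w → A - d y w ≤ d x y := fun w A h => by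
    have := (abs_le.1 (hl w)).2
    linarith
  rcases state hd hab hac hbc x with ⟨x1, x2, x3⟩ | ⟨x1, x0, x2, x3⟩ | ⟨x1, x2, x0, x3⟩ |
      ⟨x1, x2, x3, x0⟩ <;>
    rcases state hd hab hac hbc y with ⟨y1, y2, y3⟩ | ⟨y1, y0, y2, y3⟩ | ⟨y1, y2, y0, y3⟩ |
      ⟨y1, y2, y3, y0⟩ <;>
    rw [x1, x2, x3, y1, y2, y3] <;> simp only [sub_self, abs_zero, add_zero, zero_add]
  all_goals first
    | exact h0
    | exact hl _
    | (rw [ep x0]; exact one _ _ x0 (min_eq_right_iff.1 y1))
    | (rw [eq' x0]; exact one _ _ x0 (min_eq_right_iff.1 y2))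
    | (rw [er x0]; exact one _ _ x0 (min_eq_right_iff.1 y3))
    | (rw [fp y0]; exact two _ _ (min_eq_right_iff.1 x1))
    | (rw [fq y0]; exact two _ _ (min_eq_right_iff.1 x2))
    | (rw [fr y0]; exact two _ _ (min_eq_right_iff.1 x3))
    | (rw [ep x0, fq y0]; linarith)
    | (rw [ep x0, fr y0]; linarith)
    | (rw [eq' x0, fr y0]; linarith)
    | (rw [fp y0, eq' x0]; linarith)
    | (rw [fp y0, er x0]; linarith)
    | (rw [fq y0, er x0]; linarith)

theorem gp_add {V : Type} {d : V → V → ℝ} (hd : IsMet d) (R : Fin 3 → V) (i : Fin 3) :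
    gp d R (i + 1) + gp d R (i + 2) = d (R (i + 1)) (R (i + 2)) ∧
    gp d R i + gp d R (i + 1) = d (R i) (R (i + 1)) ∧
    gp d R i + gp d R (i + 2) = d (R i) (R (i + 2)) := by
  have h01 := hd.symm (R 0) (R 1)
  have h02 := hd.symm (R 0) (R 2)
  have h12 := hd.symm (R 1) (R 2)
  fin_cases i <;> simp only [gp, Fin.zero_eta, Fin.mk_one, Fin.reduceFinMk, Fin.isValue,
    zero_add, Fin.reduceAdd] <;> refine ⟨?_, ?_, ?_⟩ <;> linarith

/-- the three legs together are at most the distance -/
theorem legs_le {V : Type} {d : V → V → ℝ} (hd : IsMet d) (R : Fin 3 → V) (x y : V) :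
    leg d R 0 x y + leg d R 1 x y + leg d R 2 x y ≤ d x y := by
  have h := gp_add hd R 0
  simp only [zero_add] at h
  exact legs3 hd h.2.1 h.2.2 h.1 x y

theorem legs_le' {V : Type} {d : V → V → ℝ} (hd : IsMet d) (R : Fin 3 → V) (i : Fin 3)
    (x y : V) : leg d R i x y + leg d R (i + 1) x y + leg d R (i + 2) x y ≤ d x y := by
  obtain ⟨h1, h2, h3⟩ := gp_add hd R i
  exact legs3 hd h2 h3 h1 x y

theorem legs_sum {V : Type} (d : V → V → ℝ) (R : Fin 3 → V) (i : Fin 3) (x y : V) :
    leg d R 0 x y + leg d R 1 x y + leg d R 2 x y =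
      leg d R i x y + leg d R (i + 1) x y + leg d R (i + 2) x y := by
  fin_cases i <;> simp only [Fin.zero_eta, Fin.mk_one, Fin.reduceFinMk, Fin.isValue,
    zero_add, Fin.reduceAdd] <;> ring

theorem gp_nonneg {V : Type} {d : V → V → ℝ} (hd : IsMet d) (R : Fin 3 → V) (i : Fin 3) :
    0 ≤ gp d R i := by
  have h := hd.tri (R (i + 1)) (R i) (R (i + 2))
  rw [hd.symm (R (i + 1)) (R i)] at h
  unfold gp
  linarith

/-- **[LINE]** -/
theorem line : LineStmt := by
  intro V _ G d hd _ R hR i D hD
  obtain ⟨hpm, -, hup, hlow⟩ := hD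
  obtain ⟨h12, h01, h02⟩ := gp_add hd R i
  have g0 := gp_nonneg hd R i
  have g1 := gp_nonneg hd R (i + 1)
  have g2 := gp_nonneg hd R (i + 2)
  have n01 : i ≠ i + 1 := by fin_cases i <;> decide
  have n02 : i ≠ i + 2 := by fin_cases i <;> decide
  have n12 : i + 1 ≠ i + 2 := by fin_cases i <;> decide
  have s01 := hd.symm (R i) (R (i + 1))
  have s02 := hd.symm (R i) (R (i + 2))
  have s12 := hd.symm (R (i + 1)) (R (i + 2))
  -- the values of the legs on the triple
  have L001 : leg d R i (R i) (R (i + 1)) = gp d R i := by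
    unfold leg
    rw [hd.self, min_eq_left g0, min_eq_right (by linarith), zero_sub, abs_neg, abs_of_nonneg g0]
  have L101 : leg d R (i + 1) (R i) (R (i + 1)) = gp d R (i + 1) := by
    unfold leg
    rw [hd.self, min_eq_left g1, min_eq_right (by linarith), sub_zero, abs_of_nonneg g1]
  have L201 : leg d R (i + 2) (R i) (R (i + 1)) = 0 := by
    unfold leg
    rw [min_eq_right (by linarith), min_eq_right (by linarith), sub_self, abs_zero]
  have L002 : leg d R i (R i) (R (i + 2)) = gp d R i := by
    unfold leg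
    rw [hd.self, min_eq_left g0, min_eq_right (by linarith), zero_sub, abs_neg, abs_of_nonneg g0]
  have L102 : leg d R (i + 1) (R i) (R (i + 2)) = 0 := by
    unfold leg
    rw [min_eq_right (by linarith), min_eq_right (by linarith), sub_self, abs_zero]
  have L202 : leg d R (i + 2) (R i) (R (i + 2)) = gp d R (i + 2) := by
    unfold leg
    rw [hd.self, min_eq_left g2, min_eq_right (by linarith), sub_zero, abs_of_nonneg g2]
  have L012 : leg d R i (R (i + 1)) (R (i + 2)) = 0 := by
    unfold leg
    rw [min_eq_right (by linarith), min_eq_right (by linarith), sub_self, abs_zero]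
  have L112 : leg d R (i + 1) (R (i + 1)) (R (i + 2)) = gp d R (i + 1) := by
    unfold leg
    rw [hd.self, min_eq_left g1, min_eq_right (by linarith), zero_sub, abs_neg, abs_of_nonneg g1]
  have L212 : leg d R (i + 2) (R (i + 1)) (R (i + 2)) = gp d R (i + 2) := by
    unfold leg
    rw [hd.self, min_eq_left g2, min_eq_right (by linarith), sub_zero, abs_of_nonneg g2]
  -- upper bounds
  have u01 : D (R i) (R (i + 1)) ≤ gp d R (i + 1) / 2 := by
    have h := hup _ _ (hR _ _ n01)
    unfold ll at h
    rw [legs_sum d R i, L001, L101, L201] at h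
    linarith
  have u02 : D (R i) (R (i + 2)) ≤ gp d R (i + 2) / 2 := by
    have h := hup _ _ (hR _ _ n02)
    unfold ll at h
    rw [legs_sum d R i, L002, L102, L202] at h
    linarith
  have u12 : D (R (i + 1)) (R (i + 2)) ≤ (gp d R (i + 1) + gp d R (i + 2)) / 2 := by
    have h := hup _ _ (hR _ _ n12)
    unfold ll at h
    rw [legs_sum d R i, L012, L112, L212] at h
    linarith
  -- the two test functions
  have hll : ∀ u v, (leg d R (i + 1) u v + leg d R (i + 2) u v) / 2 ≤ ll d R i u v := by
    intro u v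
    have h := legs_le hd R u v
    unfold ll
    linarith
  have hleg0 : ∀ j u v, 0 ≤ leg d R j u v := fun j u v => abs_nonneg _
  set f1 : V → ℝ := fun z => min (d z (R (i + 1))) (gp d R (i + 1)) / 2 with hf1
  set f2 : V → ℝ := fun z => min (d z (R (i + 2))) (gp d R (i + 2)) / 2 with hf2
  have e1 : ∀ u v, |f1 u - f1 v| = leg d R (i + 1) u v / 2 := by
    intro u v
    simp only [hf1, leg]
    rw [← sub_div, abs_div, abs_of_pos (by norm_num : (0 : ℝ) < 2)]
  have e2 : ∀ u v, |f2 u - f2 v| = leg d R (i + 2) u v / 2 := by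
    intro u v
    simp only [hf2, leg]
    rw [← sub_div, abs_div, abs_of_pos (by norm_num : (0 : ℝ) < 2)]
  have k1 := hlow f1 (fun u v _ => by
    have := hll u v
    have := hleg0 (i + 2) u v
    rw [e1]
    linarith) (R i) (R (i + 1))
  have k2 := hlow f2 (fun u v _ => by
    have := hll u v
    have := hleg0 (i + 1) u v
    rw [e2]
    linarith) (R i) (R (i + 2))
  have k3 := hlow (fun z => f1 z - f2 z) (fun u v _ => by
    have h := hll u v
    have h1 := e1 u v
    have h2 := e2 u v
    have h3 : f1 u - f2 u - (f1 v - f2 v) = (f1 u - f1 v) - (f2 u - f2 v) := by ring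
    have h4 := abs_sub (f1 u - f1 v) (f2 u - f2 v)
    rw [h3]
    linarith) (R (i + 1)) (R (i + 2))
  rw [e1, L101] at k1
  rw [e2, L202] at k2
  have v11 : f1 (R (i + 1)) = 0 := by
    simp only [hf1]
    rw [hd.self, min_eq_left g1, zero_div]
  have v12 : f1 (R (i + 2)) = gp d R (i + 1) / 2 := by
    simp only [hf1]
    rw [min_eq_right (by linarith)]
  have v21 : f2 (R (i + 1)) = gp d R (i + 2) / 2 := by
    simp only [hf2]
    rw [min_eq_right (by linarith)]
  have v22 : f2 (R (i + 2)) = 0 := by
    simp only [hf2]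
    rw [hd.self, min_eq_left g2, zero_div]
  have k3' : (gp d R (i + 1) + gp d R (i + 2)) / 2 ≤ D (R (i + 1)) (R (i + 2)) := by
    have h := (neg_le_abs _).trans k3
    simp only [v11, v12, v21, v22] at h
    linarith
  exact ⟨le_antisymm u01 k1, le_antisymm u02 k2, le_antisymm u12 k3'⟩

end Vale.Agent.P235.K5.H529
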