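import Vale.Agent.P235.K5.Cap

/-!
P235, line K5 (3-sums), part CAP: row [SUPL] (helper529).
-/

set_option autoImplicit false

namespace Vale.Agent.P235.K5.H529

open SimpleGraph Vale.Agent.P235

/-- the supremum of the differences of the functions bounded by `lam` on the edges -/
noncomputable def supG {V : Type} (G : SimpleGraph V) (lam : V → V → ℝ) (x y : V) : ℝ :=
  sSup {r | ∃ f : V → ℝ, (∀ u v, G.Adj u v → |f u - f v| ≤ lam u v) ∧ r = |f x - f y|}

/-- **[SUPL]** -/
theorem supl : SuplStmt := by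
  intro V G d hd hG lam h0 _ hup
  have hne : ∀ x y, {r | ∃ f : V → ℝ, (∀ u v, G.Adj u v → |f u - f v| ≤ lam u v) ∧
      r = |f x - f y|}.Nonempty := fun x y =>
    ⟨_, fun _ => 0, fun u v _ => by simpa using h0 u v, rfl⟩
  have hb : ∀ x y, ∀ r ∈ {r | ∃ f : V → ℝ, (∀ u v, G.Adj u v → |f u - f v| ≤ lam u v) ∧
      r = |f x - f y|}, r ≤ d x y := by
    rintro x y _ ⟨f, hf, rfl⟩
    exact hG f (fun u v h => (hf u v h).trans (hup u v h)) x y
  have hbdd : ∀ x y, BddAbove {r | ∃ f : V → ℝ, (∀ u v, G.Adj u v → |f u - f v| ≤ lam u v) ∧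
      r = |f x - f y|} := fun x y => ⟨d x y, hb x y⟩
  have hle : ∀ f : V → ℝ, (∀ u v, G.Adj u v → |f u - f v| ≤ lam u v) → ∀ x y,
      |f x - f y| ≤ supG G lam x y := fun f hf x y => le_csSup (hbdd x y) ⟨f, hf, rfl⟩
  have hD : ∀ x y, supG G lam x y ≤ d x y := fun x y => csSup_le (hne x y) (hb x y)
  have hnn : ∀ x y, 0 ≤ supG G lam x y := fun x y => by
    have := hle (fun _ => 0) (fun u v _ => by simpa using h0 u v) x y
    simpa using this
  have hadj : ∀ u v, G.Adj u v → supG G lam u v ≤ lam u v := by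
    intro u v h
    refine csSup_le (hne u v) ?_
    rintro _ ⟨f, hf, rfl⟩
    exact hf u v h
  refine ⟨supG G lam, ⟨?_, hnn, ?_, ?_⟩, ?_, hadj, hle⟩
  · intro x
    have h1 := hD x x
    rw [hd.self] at h1
    exact le_antisymm h1 (hnn x x)
  · intro x y
    unfold supG
    congr 1
    ext r
    constructor
    · rintro ⟨f, hf, rfl⟩
      exact ⟨f, hf, abs_sub_comm _ _⟩
    · rintro ⟨f, hf, rfl⟩
      exact ⟨f, hf, abs_sub_comm _ _⟩
  · intro x y z
    refine csSup_le (hne x z) ?_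
    rintro _ ⟨f, hf, rfl⟩
    exact (abs_sub_le (f x) (f y) (f z)).trans (add_le_add (hle f hf x y) (hle f hf y z))
  · intro f hf x y
    exact hle f (fun u v h => (hf u v h).trans (hadj u v h)) x y

end Vale.Agent.P235.K5.H529
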